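import Vale.Agent.P106.H84.Box
import Vale.Agent.P106.AN.Base

/-! # P106 / H84 : `AN.StREP`, `AN.StORT`, `AN.StWI` for the truncated cone (helper84) -/

open MeasureTheory Complex Set
open scoped ENNReal NNReal ContDiff FourierTransform

set_option linter.all false

namespace Vale.Agent.P106.H84

open Vale.Agent.P106.AN
open Vale.Agent.P122.C2 (Z2 fw fn)

/-- matrix of the normalised coordinates -/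
noncomputable def mA (θ ρ0 ρ1 ρ2 ρ3 : ℝ) (s : Fin 2 → ℝ) : Matrix (Fin 4) (Fin 4) ℝ :=
  !![-s 0 / ρ0, -s 1 / ρ0, (s 0 ^ 2 + s 1 ^ 2) / 2 / ρ0, 1 / ρ0;
     Real.cos θ / ρ1, Real.sin θ / ρ1, -(Real.cos θ * s 0 + Real.sin θ * s 1) / ρ1, 0;
     -Real.sin θ / ρ2, Real.cos θ / ρ2, -(-Real.sin θ * s 0 + Real.cos θ * s 1) / ρ2, 0;
     0, 0, 1 / ρ3, 0]

noncomputable def aL (θ ρ0 ρ1 ρ2 ρ3 : ℝ) (s : Fin 2 → ℝ) : Ed 4 →ₗ[ℝ] Ed 4 := Matrix.toEuclideanLin (mA θ ρ0 ρ1 ρ2 ρ3 s)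

/-- dual coordinates -/
noncomputable def pL (θ ρ0 ρ1 ρ2 ρ3 : ℝ) (s : Fin 2 → ℝ) (ξ : Ed 4) : Fin 4 → ℝ :=
  ![ρ0 * ξ 3, ρ1 * fw θ (![ξ 0 + ξ 3 * s 0, ξ 1 + ξ 3 * s 1]), ρ2 * fn θ (![ξ 0 + ξ 3 * s 0, ξ 1 + ξ 3 * s 1]),
    ρ3 * (ξ 2 + s 0 * ξ 0 + s 1 * ξ 1 + ξ 3 * (s 0 ^ 2 + s 1 ^ 2) / 2)]

lemma aL_apply (θ ρ0 ρ1 ρ2 ρ3 : ℝ) (s : Fin 2 → ℝ) (z : Ed 4) :
    aL θ ρ0 ρ1 ρ2 ρ3 s z = !₂[nl s z / ρ0, fw θ (dv s z) / ρ1, fn θ (dv s z) / ρ2, z 2 / ρ3] := by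
  ext i
  unfold aL
  rw [Matrix.toEuclideanLin_apply]
  fin_cases i
  · simp only [mA, nl, Matrix.mulVec, dotProduct, Fin.sum_univ_four, Matrix.of_apply, Matrix.cons_val', Matrix.cons_val_zero,
      Matrix.cons_val_one, Matrix.cons_val, Fin.zero_eta]
    ring
  · simp only [mA, fw, dv, Matrix.mulVec, dotProduct, Fin.sum_univ_four, Matrix.of_apply, Matrix.cons_val', Matrix.cons_val_zero,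
      Matrix.cons_val_one, Matrix.cons_val, Fin.mk_one]
    ring
  · simp only [mA, fn, dv, Matrix.mulVec, dotProduct, Fin.sum_univ_four, Matrix.of_apply, Matrix.cons_val', Matrix.cons_val_zero,
      Matrix.cons_val_one, Matrix.cons_val, Fin.reduceFinMk]
    ring
  · simp only [mA, Matrix.mulVec, dotProduct, Fin.sum_univ_four, Matrix.of_apply, Matrix.cons_val', Matrix.cons_val_zero,
      Matrix.cons_val_one, Matrix.cons_val, Fin.reduceFinMk]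
    ring

lemma det_mA {ρ0 ρ1 ρ2 ρ3 : ℝ} (h0 : 0 < ρ0) (h1 : 0 < ρ1) (h2 : 0 < ρ2) (h3 : 0 < ρ3) (θ : ℝ) (s : Fin 2 → ℝ) :
    (mA θ ρ0 ρ1 ρ2 ρ3 s).det = -(ρ0 * ρ1 * ρ2 * ρ3)⁻¹ := by
  have hs := Real.sin_sq_add_cos_sq θ
  unfold mA
  rw [Matrix.det_succ_row_zero]
  simp [Fin.sum_univ_succ, Matrix.det_fin_three, Matrix.submatrix, Fin.succAbove]
  field_simp
  linear_combination (-1) * hs

lemma det_aL {ρ0 ρ1 ρ2 ρ3 : ℝ} (h0 : 0 < ρ0) (h1 : 0 < ρ1) (h2 : 0 < ρ2) (h3 : 0 < ρ3) (θ : ℝ) (s : Fin 2 → ℝ) :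
    LinearMap.det (aL θ ρ0 ρ1 ρ2 ρ3 s) = -(ρ0 * ρ1 * ρ2 * ρ3)⁻¹ := by
  unfold aL
  rw [Matrix.toEuclideanLin_eq_toLin, LinearMap.det_toLin, det_mA h0 h1 h2 h3]

lemma abs_det_aL {ρ0 ρ1 ρ2 ρ3 : ℝ} (h0 : 0 < ρ0) (h1 : 0 < ρ1) (h2 : 0 < ρ2) (h3 : 0 < ρ3) (θ : ℝ) (s : Fin 2 → ℝ) :
    |LinearMap.det (aL θ ρ0 ρ1 ρ2 ρ3 s)| = (ρ0 * ρ1 * ρ2 * ρ3)⁻¹ := by
  rw [det_aL h0 h1 h2 h3, abs_neg, abs_of_pos (by positivity)]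

lemma bx {ρ0 ρ1 ρ2 ρ3 : ℝ} (h0 : 0 < ρ0) (h1 : 0 < ρ1) (h2 : 0 < ρ2) (h3 : 0 < ρ3) (θ : ℝ) (s : Fin 2 → ℝ) :
    Bx (aL θ ρ0 ρ1 ρ2 ρ3 s) (pL θ ρ0 ρ1 ρ2 ρ3 s) where
  det := by
    rw [det_aL h0 h1 h2 h3]
    exact neg_ne_zero.mpr (by positivity)
  dual := by
    intro ξ z
    rw [aL_apply, Fin.sum_univ_four, PiLp.inner_apply, Fin.sum_univ_four]
    simp only [pL, nl, fw, fn, dv, Matrix.cons_val_zero, Matrix.cons_val_one, Matrix.cons_val, RCLike.inner_apply,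
      conj_trivial]
    have hs := Real.sin_sq_add_cos_sq θ
    field_simp
    linear_combination (2 * ((z 0 - s 0 * z 2) * (ξ 0 + ξ 3 * s 0) + (z 1 - s 1 * z 2) * (ξ 1 + ξ 3 * s 1))) * (-hs)

lemma wa_aL {ρ0 ρ1 ρ2 ρ3 : ℝ} (h0 : 0 < ρ0) (h1 : 0 < ρ1) (h2 : 0 < ρ2) (h3 : 0 < ρ3) (M : ℕ) (θ : ℝ) (s : Fin 2 → ℝ) (z : Ed 4) :
    wa M (aL θ ρ0 ρ1 ρ2 ρ3 s) z = wg M θ ρ0 ρ1 ρ2 ρ3 s z := by
  unfold wa wg gau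
  rw [aL_apply, Fin.sum_univ_four]
  simp only [Matrix.cons_val_zero, Matrix.cons_val_one, Matrix.cons_val, abs_div, abs_of_pos h0, abs_of_pos h1,
    abs_of_pos h2, abs_of_pos h3]

lemma dual_iff {c ρ0 ρ1 ρ2 ρ3 : ℝ} (h0 : 0 < ρ0) (h1 : 0 < ρ1) (h2 : 0 < ρ2) (h3 : 0 < ρ3) (θ : ℝ) (s : Fin 2 → ℝ) (ξ : Ed 4) :
    Dual c θ ρ0 ρ1 ρ2 ρ3 s ξ ↔ ∀ i, |pL θ ρ0 ρ1 ρ2 ρ3 s ξ i| ≤ c := by
  have e : ∀ {r x : ℝ}, 0 < r → (|r * x| ≤ c ↔ |x| ≤ c / r) := by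
    intro r x hr
    rw [abs_mul, abs_of_pos hr, le_div_iff₀ hr, mul_comm]
  unfold Dual pL
  constructor
  · rintro ⟨a0, a1, a2, a3⟩ i
    fin_cases i
    · exact (e h0).mpr a0
    · exact (e h1).mpr a1
    · exact (e h2).mpr a2
    · exact (e h3).mpr a3
  · intro h
    exact ⟨(e h0).mp (h 0), (e h1).mp (h 1), (e h2).mp (h 2), (e h3).mp (h 3)⟩

theorem stREP : StREP := by
  intro M c hc
  obtain ⟨C, hC, h⟩ := repd 4 M c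
  refine ⟨C, hC, ?_⟩
  intro θ ρ0 ρ1 ρ2 ρ3 s ξ0 g h0 h1 h2 h3 hg hs x
  have key := h (aL θ ρ0 ρ1 ρ2 ρ3 s) (pL θ ρ0 ρ1 ρ2 ρ3 s) ξ0 g (bx h0 h1 h2 h3 θ s) hg
    (fun ξ hξ => (dual_iff h0 h1 h2 h3 θ s _).mp (hs ξ hξ)) x
  rw [abs_det_aL h0 h1 h2 h3] at key
  simp_rw [wa_aL h0 h1 h2 h3] at key
  exact key

theorem stORT : StORT := by
  intro M
  obtain ⟨C, hC, h⟩ := ortd 4 M
  refine ⟨C, hC, ?_⟩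
  intro ι I g θ ρ0 ρ1 ρ2 ρ3 s m h0 h1 h2 h3 hg hov z0
  have key := h ι I g (aL θ ρ0 ρ1 ρ2 ρ3 s) (pL θ ρ0 ρ1 ρ2 ρ3 s) m (bx h0 h1 h2 h3 θ s) hg ?_ z0
  · simp_rw [wa_aL h0 h1 h2 h3] at key
    exact key
  · intro k hk J hJ hJ2
    apply hov k hk J hJ
    intro l hl
    obtain ⟨ξ, η, h5, h6, h7⟩ := hJ2 l hl
    exact ⟨ξ, η, h5, h6, (dual_iff h0 h1 h2 h3 θ s _).mpr h7⟩

theorem stWI : StWI := by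
  obtain ⟨C, hC, h⟩ := wid 4
  refine ⟨C, hC, ?_⟩
  intro M θ ρ0 ρ1 ρ2 ρ3 s z0 hM h0 h1 h2 h3
  have key := h M (aL θ ρ0 ρ1 ρ2 ρ3 s) (pL θ ρ0 ρ1 ρ2 ρ3 s) z0 (by omega) (bx h0 h1 h2 h3 θ s)
  rw [abs_inv, abs_det_aL h0 h1 h2 h3, inv_inv] at key
  simp_rw [wa_aL h0 h1 h2 h3] at key
  exact key

end Vale.Agent.P106.H84
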