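import Vale.Agent.P106.H84.Gen

/-! # P106 / H84 : [REP] and [ORT] for an arbitrary linear box map in any dimension (helper84)

`Bx a p`: `a` maps the box to the unit cube, `p` are the dual coordinates. -/

open MeasureTheory Complex Set
open scoped ENNReal NNReal ContDiff FourierTransform SchwartzMap

set_option linter.all false

namespace Vale.Agent.P106.H84

open Vale.Agent.P122.H84 (ee norm_ee ee_add ee_zero conj_ee continuous_ee measurable_ee char_eq decay exists_ker exists_FF)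

variable {d : ℕ}

/-- euclidean space -/
abbrev Ed (d : ℕ) := EuclideanSpace ℝ (Fin d)

/-- normalised coordinates `a` and the dual coordinates `p` -/
structure Bx (a : Ed d →ₗ[ℝ] Ed d) (p : Ed d → Fin d → ℝ) : Prop where
  det : LinearMap.det a ≠ 0
  dual : ∀ ξ z, (inner ℝ ξ z : ℝ) = ∑ i, a z i * p ξ i

/-- weight of the box centred at `0` -/
noncomputable def wa (M : ℕ) (a : Ed d →ₗ[ℝ] Ed d) (z : Ed d) : ℝ≥0∞ := ENNReal.ofReal (((1 + ∑ i, |a z i|) ^ M)⁻¹)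

lemma Bx.surj {a : Ed d →ₗ[ℝ] Ed d} {p : Ed d → Fin d → ℝ} (h : Bx a p) : Function.Surjective a := by
  have : LinearMap.range a = ⊤ := LinearMap.range_eq_top.mpr (LinearMap.equivOfDetNeZero a h.det).surjective
  exact LinearMap.range_eq_top.mp this

lemma Bx.eq {a : Ed d →ₗ[ℝ] Ed d} {p : Ed d → Fin d → ℝ} (h : Bx a p) : ∃ e : Fin d → Ed d, ∀ ξ i, p ξ i = inner ℝ ξ (e i) := by
  choose e he using fun i : Fin d => h.surj (EuclideanSpace.single i 1)
  refine ⟨e, fun ξ i => ?_⟩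
  rw [h.dual, he]
  simp [EuclideanSpace.single_apply]

lemma Bx.meas {a : Ed d →ₗ[ℝ] Ed d} {p : Ed d → Fin d → ℝ} (h : Bx a p) : Measurable p := by
  obtain ⟨e, he⟩ := h.eq
  apply measurable_pi_lambda
  intro i
  simp_rw [he]
  fun_prop

lemma Bx.sub {a : Ed d →ₗ[ℝ] Ed d} {p : Ed d → Fin d → ℝ} (h : Bx a p) (ξ η : Ed d) (i : Fin d) :
    p (ξ - η) i = p ξ i - p η i := by
  obtain ⟨e, he⟩ := h.eq
  rw [he, he, he, inner_sub_left]

/-- change of variables -/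
lemma Bx.lint {a : Ed d →ₗ[ℝ] Ed d} {p : Ed d → Fin d → ℝ} (h : Bx a p) (H : (Fin d → ℝ) → ℝ≥0∞) (hH : Measurable H) :
    ∫⁻ z, H (WithLp.ofLp (a z)) = ENNReal.ofReal |(LinearMap.det a)⁻¹| * ∫⁻ t, H t := by
  have h1 := Measure.map_linearMap_addHaar_eq_smul_addHaar (volume : Measure (Ed d)) h.det
  have hm : Measurable (fun w : Ed d => H (WithLp.ofLp w)) := by fun_prop
  have ha : Measurable a := (LinearMap.continuous_of_finiteDimensional a).measurable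
  have h2 : ∫⁻ z, H (WithLp.ofLp (a z)) = ∫⁻ w, H (WithLp.ofLp w) ∂(Measure.map a volume) := by
    rw [lintegral_map hm ha]
  rw [h2, h1, lintegral_smul_measure, smul_eq_mul]
  congr 1
  have hvp := PiLp.volume_preserving_ofLp (Fin d)
  exact hvp.lintegral_comp hH

lemma inv_UU {a : Ed d →ₗ[ℝ] Ed d} {p : Ed d → Fin d → ℝ} (h : Bx a p) (g : Ed d → ℂ) (z z0 : Ed d) :
    𝓕⁻ g (z + z0) = UU volume p (fun ξ => g ξ * ee (inner ℝ ξ z0)) (WithLp.ofLp (a z)) := by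
  rw [Real.fourierInv_eq]
  unfold UU
  apply integral_congr_ae
  refine Filter.Eventually.of_forall fun ξ => ?_
  simp only
  rw [char_eq, ← h.dual, inner_add_right, ee_add]
  ring

/-- modulation does not change the absolute value -/
lemma UU_shift {a : Ed d →ₗ[ℝ] Ed d} {p : Ed d → Fin d → ℝ} (h : Bx a p) (G : Ed d → ℂ) (ξ0 : Ed d) (t : Fin d → ℝ) :
    ‖UU volume (fun ξ => p (ξ - ξ0)) G t‖ₑ = ‖UU volume p G t‖ₑ := by
  have : UU volume (fun ξ => p (ξ - ξ0)) G t = ee (-∑ i, t i * p ξ0 i) * UU volume p G t := by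
    unfold UU
    rw [← integral_const_mul]
    apply integral_congr_ae
    refine Filter.Eventually.of_forall fun ξ => ?_
    simp only
    have e : ∑ i, t i * p (ξ - ξ0) i = -∑ i, t i * p ξ0 i + ∑ i, t i * p ξ i := by
      rw [← Finset.sum_neg_distrib, ← Finset.sum_add_distrib]
      apply Finset.sum_congr rfl
      intro i _
      rw [h.sub]
      ring
    rw [e, ee_add]
    ring
  rw [this, enorm_mul, ← ofReal_norm_eq_enorm, norm_ee, ENNReal.ofReal_one, one_mul]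

/-- [REP] for constant one -/
theorem rep1 (d M : ℕ) : ∃ C : ℝ, 0 ≤ C ∧ ∀ (a : Ed d →ₗ[ℝ] Ed d) (p : Ed d → Fin d → ℝ) (ξ0 : Ed d) (g : Ed d → ℂ),
    Bx a p → Integrable g → (∀ ξ, g ξ ≠ 0 → ∀ i, |p (ξ - ξ0) i| ≤ 1) →
    ∀ x, ‖𝓕⁻ g x‖ₑ ^ 2 ≤ ENNReal.ofReal (C * |LinearMap.det a|) * ∫⁻ y, ‖𝓕⁻ g y‖ₑ ^ 2 * wa M a (x - y) := by
  obtain ⟨C, hC, hlc⟩ := lc d M
  refine ⟨C, hC, ?_⟩
  intro a p ξ0 g hb hg hs x
  set G : Ed d → ℂ := fun ξ => g ξ * ee (inner ℝ ξ x) with hG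
  have hGi : Integrable G := by
    refine hg.mul_bdd (c := 1) ?_ ?_
    · exact (by fun_prop : Continuous fun ξ : Ed d => ee (inner ℝ ξ x)).aestronglyMeasurable
    · exact Filter.Eventually.of_forall fun y => by rw [norm_ee]
  have hpm : Measurable (fun ξ => p (ξ - ξ0)) := hb.meas.comp (measurable_id.sub_const ξ0)
  have key := hlc (Ed d) volume (fun ξ => p (ξ - ξ0)) G hpm hGi ?_
  · simp_rw [UU_shift hb] at key
    have e0 : ‖𝓕⁻ g x‖ₑ = ‖UU volume p G 0‖ₑ := by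
      have := inv_UU hb g 0 x
      rw [zero_add] at this
      rw [this]
      simp [hG]
    rw [e0]
    refine key.trans (le_of_eq ?_)
    have hUc := (UU_cont hb.meas hGi).measurable
    have hH : Measurable (fun t => ‖UU volume p G t‖ₑ ^ 2 * wt M t) := (hUc.enorm.pow_const 2).mul (wt_meas M)
    have h1 := hb.lint _ hH
    have h2 : ∫⁻ y, ‖𝓕⁻ g y‖ₑ ^ 2 * wa M a (x - y) = ∫⁻ z, ‖UU volume p G (WithLp.ofLp (a z))‖ₑ ^ 2 * wt M (WithLp.ofLp (a z)) := by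
      rw [← lintegral_add_right_eq_self (fun y => ‖𝓕⁻ g y‖ₑ ^ 2 * wa M a (x - y)) x]
      apply lintegral_congr
      intro z
      rw [inv_UU hb g z x]
      congr 1
      unfold wa wt l1
      rw [show x - (z + x) = -z by abel, map_neg]
      simp
    rw [h2, h1, ← mul_assoc, ← ENNReal.ofReal_mul (by positivity)]
    congr 2
    rw [mul_assoc, abs_inv, mul_inv_cancel₀ (abs_ne_zero.mpr hb.det), mul_one]
  · intro ξ hξ i
    apply hs
    intro h
    apply hξ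
    simp [hG, h]

/-- scaling a box -/
lemma Bx.smul {a : Ed d →ₗ[ℝ] Ed d} {p : Ed d → Fin d → ℝ} (h : Bx a p) {c : ℝ} (hc : 0 < c) :
    Bx (c • a) (fun ξ i => p ξ i / c) where
  det := by
    rw [LinearMap.det_smul]
    exact mul_ne_zero (pow_ne_zero _ hc.ne') h.det
  dual := by
    intro ξ z
    rw [h.dual]
    apply Finset.sum_congr rfl
    intro i _
    simp only [LinearMap.smul_apply, PiLp.smul_apply, smul_eq_mul]
    field_simp

/-- **[REP]** local constancy on a box, `c`-fold dual box -/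
theorem repd (d M : ℕ) (c : ℝ) : ∃ C : ℝ, 0 ≤ C ∧ ∀ (a : Ed d →ₗ[ℝ] Ed d) (p : Ed d → Fin d → ℝ) (ξ0 : Ed d) (g : Ed d → ℂ),
    Bx a p → Integrable g → (∀ ξ, g ξ ≠ 0 → ∀ i, |p (ξ - ξ0) i| ≤ c) →
    ∀ x, ‖𝓕⁻ g x‖ₑ ^ 2 ≤ ENNReal.ofReal (C * |LinearMap.det a|) * ∫⁻ y, ‖𝓕⁻ g y‖ₑ ^ 2 * wa M a (x - y) := by
  obtain ⟨C, hC, hr⟩ := rep1 d M
  set c' : ℝ := max c 1 with hc'
  have hc1 : 1 ≤ c' := le_max_right _ _
  have hcp : 0 < c' := by linarith
  refine ⟨C * c' ^ d, by positivity, ?_⟩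
  intro a p ξ0 g hb hg hs x
  have h := hr (c' • a) (fun ξ i => p ξ i / c') ξ0 g (hb.smul hcp) hg ?_ x
  · refine h.trans ?_
    rw [LinearMap.det_smul, abs_mul, abs_of_pos (pow_pos hcp _)]
    rw [show C * (c' ^ Module.finrank ℝ (Ed d) * |LinearMap.det a|) = C * c' ^ d * |LinearMap.det a| by
      rw [finrank_euclideanSpace_fin]; ring]
    gcongr with y
    unfold wa
    apply ENNReal.ofReal_le_ofReal
    have hn : 0 ≤ ∑ i, |a (x - y) i| := Finset.sum_nonneg fun i _ => abs_nonneg _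
    apply inv_anti₀ (by positivity)
    apply pow_le_pow_left₀ (by linarith)
    have : ∑ i, |(c' • a) (x - y) i| = c' * ∑ i, |a (x - y) i| := by
      rw [Finset.mul_sum]
      apply Finset.sum_congr rfl
      intro i _
      simp only [LinearMap.smul_apply, PiLp.smul_apply, smul_eq_mul, abs_mul, abs_of_pos hcp]
    rw [this]
    nlinarith
  · intro ξ hξ i
    show |p (ξ - ξ0) i / c'| ≤ 1
    rw [abs_div, abs_of_pos hcp, div_le_one hcp]
    exact (hs ξ hξ i).trans (le_max_left _ _)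

/-- **[ORT]** orthogonality up to overlaps on a box -/
theorem ortd (d M : ℕ) : ∃ C : ℝ, 0 ≤ C ∧ ∀ (ι : Type) (I : Finset ι) (g : ι → Ed d → ℂ) (a : Ed d →ₗ[ℝ] Ed d)
    (p : Ed d → Fin d → ℝ) (m : ℕ), Bx a p → (∀ k ∈ I, Integrable (g k)) →
    (∀ k ∈ I, ∀ J ⊆ I, (∀ l ∈ J, ∃ ξ η, g k ξ ≠ 0 ∧ g l η ≠ 0 ∧ ∀ i, |p (ξ - η) i| ≤ 1) → J.card ≤ m) →
    ∀ z0, ∫⁻ z, ‖∑ k ∈ I, 𝓕⁻ (g k) z‖ₑ ^ 2 * wa M a (z - z0) ≤
      ENNReal.ofReal (C * m) * ∑ k ∈ I, ∫⁻ z, ‖𝓕⁻ (g k) z‖ₑ ^ 2 * wa M a (z - z0) := by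
  obtain ⟨C, hC, hor⟩ := ord d M
  refine ⟨C, hC, ?_⟩
  intro ι I g a p m hb hg hov z0
  set G : ι → Ed d → ℂ := fun k ξ => g k ξ * ee (inner ℝ ξ z0) with hG
  have hGi : ∀ k ∈ I, Integrable (G k) := by
    intro k hk
    refine (hg k hk).mul_bdd (c := 1) ?_ ?_
    · exact (by fun_prop : Continuous fun ξ : Ed d => ee (inner ℝ ξ z0)).aestronglyMeasurable
    · exact Filter.Eventually.of_forall fun y => by rw [norm_ee]
  have hpm := hb.meas
  have key := hor (Ed d) volume p ι I G m hpm hGi ?_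
  · have conv : ∀ (f : Ed d → ℝ≥0∞) (H : (Fin d → ℝ) → ℝ≥0∞), Measurable H →
        (∀ z, f (z + z0) = H (WithLp.ofLp (a z))) →
        ∫⁻ z, f z * wa M a (z - z0) = ENNReal.ofReal |(LinearMap.det a)⁻¹| * ∫⁻ t, H t * wt M t := by
      intro f H hH hf
      rw [← lintegral_add_right_eq_self (fun z => f z * wa M a (z - z0)) z0]
      rw [← hb.lint (fun t => H t * wt M t) (hH.mul (wt_meas M))]
      apply lintegral_congr
      intro z
      rw [hf, add_sub_cancel_right]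
      rfl
    have hUm : ∀ k ∈ I, Continuous (UU volume p (G k)) := fun k hk => UU_cont hpm (hGi k hk)
    rw [conv (fun z => ‖∑ k ∈ I, 𝓕⁻ (g k) z‖ₑ ^ 2) (fun t => ‖∑ k ∈ I, UU volume p (G k) t‖ₑ ^ 2)
      ((continuous_finsetSum _ hUm).measurable.enorm.pow_const 2) ?_]
    · have e2 : ∀ k ∈ I, ∫⁻ z, ‖𝓕⁻ (g k) z‖ₑ ^ 2 * wa M a (z - z0)
          = ENNReal.ofReal |(LinearMap.det a)⁻¹| * ∫⁻ t, ‖UU volume p (G k) t‖ₑ ^ 2 * wt M t := by
        intro k hk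
        apply conv (fun z => ‖𝓕⁻ (g k) z‖ₑ ^ 2) (fun t => ‖UU volume p (G k) t‖ₑ ^ 2)
          ((hUm k hk).measurable.enorm.pow_const 2)
        intro z
        rw [inv_UU hb]
      rw [Finset.sum_congr rfl e2, ← Finset.mul_sum]
      calc ENNReal.ofReal |(LinearMap.det a)⁻¹| * ∫⁻ t, ‖∑ k ∈ I, UU volume p (G k) t‖ₑ ^ 2 * wt M t
          ≤ ENNReal.ofReal |(LinearMap.det a)⁻¹| * (ENNReal.ofReal (C * m) *
              ∑ k ∈ I, ∫⁻ t, ‖UU volume p (G k) t‖ₑ ^ 2 * wt M t) := mul_le_mul' le_rfl key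
        _ = _ := by ring
    · intro z
      congr 2
      apply Finset.sum_congr rfl
      intro k _
      rw [inv_UU hb]
  · intro k hk J hJ hJ2
    apply hov k hk J hJ
    intro l hl
    obtain ⟨ξ, η, hξ, hη, hd⟩ := hJ2 l hl
    refine ⟨ξ, η, fun h => hξ (by simp [hG, h]), fun h => hη (by simp [hG, h]), ?_⟩
    intro i
    rw [hb.sub]
    exact hd i

lemma wt_int (d M : ℕ) (hM : d + 1 ≤ M) : ∃ C : ℝ, 0 ≤ C ∧ ∫⁻ t : Fin d → ℝ, wt M t ≤ ENNReal.ofReal C := by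
  have h := integrable_one_add_norm (E := Fin d → ℝ) (μ := volume) (r := (d + 1 : ℝ)) (by simp)
  refine ⟨∫ t : Fin d → ℝ, (1 + ‖t‖) ^ (-(d + 1 : ℝ)), integral_nonneg fun t => by positivity, ?_⟩
  rw [ofReal_integral_eq_lintegral_ofReal h (Filter.Eventually.of_forall fun t => by positivity)]
  apply lintegral_mono
  intro t
  unfold wt
  apply ENNReal.ofReal_le_ofReal
  have h1 : ‖t‖ ≤ l1 t := by
    rw [pi_norm_le_iff_of_nonneg (l1_nonneg t)]
    intro i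
    unfold l1
    rw [Real.norm_eq_abs]
    exact Finset.single_le_sum (f := fun i => |t i|) (fun i _ => abs_nonneg _) (Finset.mem_univ i)
  rw [Real.rpow_neg (by positivity)]
  have h2 : (1 + ‖t‖) ^ (d + 1 : ℝ) = (1 + ‖t‖) ^ (d + 1) := by norm_cast
  rw [h2]
  apply inv_anti₀ (by positivity)
  calc (1 + ‖t‖) ^ (d + 1) ≤ (1 + l1 t) ^ (d + 1) := by gcongr
    _ ≤ _ := pow_le_pow_right₀ (by have := l1_nonneg t; linarith) hM

/-- **[WI]** integral of a weight -/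
theorem wid (d : ℕ) : ∃ C : ℝ, 0 ≤ C ∧ ∀ (M : ℕ) (a : Ed d →ₗ[ℝ] Ed d) (p : Ed d → Fin d → ℝ) (z0 : Ed d), d + 1 ≤ M → Bx a p →
    ∫⁻ z, wa M a (z - z0) ≤ ENNReal.ofReal (C * |(LinearMap.det a)⁻¹|) := by
  obtain ⟨C, hC, h⟩ := wt_int d (d + 1) le_rfl
  refine ⟨C, hC, fun M a p z0 hM hb => ?_⟩
  rw [lintegral_sub_right_eq_self (fun z => wa M a z) z0]
  have e : ∀ z, wa M a z = wt M (WithLp.ofLp (a z)) := fun z => rfl
  simp_rw [e]
  rw [hb.lint _ (wt_meas M), ENNReal.ofReal_mul hC, mul_comm]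
  gcongr
  refine le_trans ?_ h
  apply lintegral_mono
  intro t
  unfold wt
  apply ENNReal.ofReal_le_ofReal
  have h0 := l1_nonneg t
  apply inv_anti₀ (by positivity)
  exact pow_le_pow_right₀ (by linarith) hM

end Vale.Agent.P106.H84
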